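import Vale.Agent.P237.Quant.TailPartsLink
import Vale.Agent.P237.Quant.RowTables
import Vale.Agent.P237.Quant.EnvelopeTableData.N16
import Vale.Agent.P237.Quant.TailData.N19.tailN19P0
import Vale.Agent.P237.Quant.TailData.N19.tailN19P1
import Vale.Agent.P237.Quant.TailData.N19.tailN19P2
import Vale.Agent.P237.Quant.TailData.N19.tailN19P3
import Vale.Agent.P237.Quant.TailData.N19.tailN19N0
import Vale.Agent.P237.Quant.TailData.N19.tailN19N1

/-!
The tail inequalities of the rows of both sides in dimension 19. Generated.
-/

namespace Vale.Agent.P237.Quant

open TailCert TailData

/-- The tail inequalities of `negRow14` in dimension 19. -/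
theorem negRow14_tailAt19 : negRow14.TailAt 18 := by
  intro P hP
  simp only [negRow14, binsOf, List.mem_cons, List.not_mem_nil, or_false] at hP
  rcases hP with rfl | rfl
  · exact tailBin_negParts tailN19N0_check tailN19N0_parts envTable19_check (by decide +kernel)
  · exact tailBin_negParts tailN19N1_check tailN19N1_parts envTable19_check (by decide +kernel)

/-- The tail inequalities of `posRow16` in dimension 19. -/
theorem posRow16_tailAt19 : posRow16.TailAt 18 := by
  intro P hP
  simp only [posRow16, posRowA, posCuts14, posCuts16, binsOf, List.mem_cons, List.not_mem_nil, or_false] at hP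
  rcases hP with rfl | rfl | rfl | rfl
  · exact tailBin_posParts tailN19P0_check tailN19P0_parts envTable19_check (by decide +kernel)
  · exact tailBin_posParts tailN19P1_check tailN19P1_parts envTable19_check (by decide +kernel)
  · exact tailBin_posParts tailN19P2_check tailN19P2_parts envTable19_check (by decide +kernel)
  · exact tailBin_posParts tailN19P3_check tailN19P3_parts envTable19_check (by decide +kernel)

end Vale.Agent.P237.Quant
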